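import Mathlib.Algebra.Algebra.Field
import Mathlib.Algebra.AlgebraicCard
import Mathlib.Algebra.BigOperators.ModEq
import Mathlib.Algebra.BigOperators.Ring.Nat
import Mathlib.Algebra.BigOperators.Sym
import Mathlib.Algebra.CharP.LinearMaps
import Mathlib.Algebra.CharP.MixedCharZero
import Mathlib.Algebra.CubicDiscriminant
import Mathlib.Algebra.DualQuaternion
import Mathlib.Algebra.Exact
import Mathlib.Algebra.Expr
import Mathlib.Algebra.Field.MinimalAxioms
import Mathlib.Algebra.Field.ModEq
import Mathlib.Algebra.Field.Power
import Mathlib.Algebra.Field.Shrink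
import Mathlib.Algebra.Field.ULift
import Mathlib.Algebra.FreeNonUnitalNonAssocAlgebra
import Mathlib.Algebra.Group.Action.Equidecomp
import Mathlib.Algebra.Group.Action.Option
import Mathlib.Algebra.Group.Action.Sigma
import Mathlib.Algebra.Group.Action.Sum
import Mathlib.Algebra.Group.ForwardDiff
import Mathlib.Algebra.Group.Nat.TypeTags
import Mathlib.Algebra.Group.PNatPowAssoc
import Mathlib.Algebra.Group.Pointwise.Finset.BigOperators
import Mathlib.Algebra.Group.Pointwise.Finset.Density
import Mathlib.Algebra.Group.Pointwise.Finset.Interval
import Mathlib.Algebra.Group.Pointwise.Set.Small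
import Mathlib.Algebra.Group.Subgroup.Finsupp
import Mathlib.Algebra.Group.Submonoid.Finsupp
import Mathlib.Algebra.Group.Submonoid.Saturation
import Mathlib.Algebra.Group.Translate
import Mathlib.Algebra.GroupWithZero.Action.ConjAct
import Mathlib.Algebra.GroupWithZero.Action.Faithful
import Mathlib.Algebra.GroupWithZero.Action.Pointwise.Finset
import Mathlib.Algebra.GroupWithZero.Conj
import Mathlib.Algebra.GroupWithZero.Int
import Mathlib.Algebra.GroupWithZero.Pointwise.Set.Card
import Mathlib.Algebra.GroupWithZero.Shrink
import Mathlib.Algebra.HierarchyDesign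
import Mathlib.Algebra.ModEq
import Mathlib.Algebra.Module.Bimodule
import Mathlib.Algebra.Module.GradedModule
import Mathlib.Algebra.Module.Lattice
import Mathlib.Algebra.Module.LinearMap.FiniteRange
import Mathlib.Algebra.Module.LinearMap.Index
import Mathlib.Algebra.Module.LinearMap.Polynomial
import Mathlib.Algebra.Module.PID
import Mathlib.Algebra.Module.PointwisePi
import Mathlib.Algebra.Module.SpanRankOperations
import Mathlib.Algebra.Module.Submodule.Union
import Mathlib.Algebra.Module.Torsion.PrimaryComponent
import Mathlib.Algebra.Order.Archimedean.IndicatorCard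
import Mathlib.Algebra.Order.Archimedean.Submonoid
import Mathlib.Algebra.Order.Chebyshev
import Mathlib.Algebra.Order.Field.Subfield
import Mathlib.Algebra.Order.Floor.Div
import Mathlib.Algebra.Order.Floor.Semifield
import Mathlib.Algebra.Order.Group.Bounds
import Mathlib.Algebra.Order.Group.CompleteLattice
import Mathlib.Algebra.Order.Group.Ideal
import Mathlib.Algebra.Order.Group.Int.Sum
import Mathlib.Algebra.Order.Group.PartialSups
import Mathlib.Algebra.Order.GroupWithZero.Lex
import Mathlib.Algebra.Order.Module.HahnEmbedding
import Mathlib.Algebra.Order.Monoid.Associated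
import Mathlib.Algebra.Order.Monoid.PNat
import Mathlib.Algebra.Order.Monoid.ToMulBot
import Mathlib.Algebra.Order.Monoid.Unbundled.Units
import Mathlib.Algebra.Order.PUnit
import Mathlib.Algebra.Order.Quantale
import Mathlib.Algebra.Order.Ring.Cone
import Mathlib.Algebra.Order.Ring.Finset
import Mathlib.Algebra.Order.Ring.Opposite
import Mathlib.Algebra.Order.Ring.Units
import Mathlib.Algebra.Order.Star.Conjneg
import Mathlib.Algebra.Order.Star.Pi
import Mathlib.Algebra.Order.Sum
import Mathlib.Algebra.PEmptyInstances
import Mathlib.Algebra.Quandle
import Mathlib.Algebra.QuaternionBasis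
import Mathlib.Algebra.Ring.Action.Pointwise.Finset
import Mathlib.Algebra.Ring.BooleanRing
import Mathlib.Algebra.Ring.Ext
import Mathlib.Algebra.Ring.Identities
import Mathlib.Algebra.Ring.IsFormallyReal
import Mathlib.Algebra.Ring.Subgroup
import Mathlib.Algebra.Ring.WithZero
import Mathlib.Algebra.Star.CHSH
import Mathlib.Algebra.Star.CentroidHom
import Mathlib.Algebra.Star.Free
import Mathlib.Algebra.Star.RingQuot
import Mathlib.Algebra.Symmetrized
import Mathlib.Algebra.TrivSqZeroExt
import Mathlib.Analysis.Analytic.Binomial
import Mathlib.Analysis.Analytic.Polynomial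
import Mathlib.Analysis.Analytic.WithLp
import Mathlib.Analysis.Calculus.AbsolutelyMonotone
import Mathlib.Analysis.Calculus.BumpFunction.SmoothApprox
import Mathlib.Analysis.Calculus.ContDiff.FiniteDimension
import Mathlib.Analysis.Calculus.ContDiff.Polynomial
import Mathlib.Analysis.Calculus.ContDiff.RestrictScalars
import Mathlib.Analysis.Calculus.Darboux
import Mathlib.Analysis.Calculus.Deriv.Pi
import Mathlib.Analysis.Calculus.Deriv.Star
import Mathlib.Analysis.Calculus.DerivativeTest
import Mathlib.Analysis.Calculus.DifferentialForm.VectorField
import Mathlib.Analysis.Calculus.FDeriv.Norm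
import Mathlib.Analysis.Calculus.FDeriv.Partial
import Mathlib.Analysis.Calculus.ImplicitContDiff
import Mathlib.Analysis.Calculus.LHopital
import Mathlib.Analysis.Calculus.LineDeriv.QuadraticMap
import Mathlib.Analysis.Calculus.LogDerivUniformlyOn
import Mathlib.Analysis.Calculus.ParametricIntervalIntegral
import Mathlib.Analysis.Calculus.Rademacher
import Mathlib.Analysis.Calculus.TaylorIntegral
import Mathlib.Analysis.ConstantSpeed
import Mathlib.Analysis.Convex.AmpleSet
import Mathlib.Analysis.Convex.BetweenList
import Mathlib.Analysis.Convex.Birkhoff
import Mathlib.Analysis.Convex.Caratheodory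
import Mathlib.Analysis.Convex.Cone.InnerDual
import Mathlib.Analysis.Convex.Cone.TensorProduct
import Mathlib.Analysis.Convex.Extrema
import Mathlib.Analysis.Convex.FunctionTopology
import Mathlib.Analysis.Convex.GaugeRescale
import Mathlib.Analysis.Convex.Independent
import Mathlib.Analysis.Convex.KreinMilman
import Mathlib.Analysis.Convex.LinearIsometry
import Mathlib.Analysis.Convex.MetricSpace
import Mathlib.Analysis.Convex.Radon
import Mathlib.Analysis.Convex.Side
import Mathlib.Analysis.Convex.StoneSeparation
import Mathlib.Analysis.Convex.StrictCombination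
import Mathlib.Analysis.Convex.StrictConvexBetween
import Mathlib.Analysis.Convex.Strong
import Mathlib.Analysis.Convex.Visible
import Mathlib.Analysis.Distribution.FourierSchwartz
import Mathlib.Analysis.Distribution.SchwartzSpace
import Mathlib.Analysis.Distribution.Sobolev
import Mathlib.Analysis.Distribution.Support
import Mathlib.Analysis.Hofer
import Mathlib.Analysis.InnerProductSpace.Affine
import Mathlib.Analysis.InnerProductSpace.Coalgebra
import Mathlib.Analysis.InnerProductSpace.ConformalLinearMap
import Mathlib.Analysis.InnerProductSpace.ExteriorPower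
import Mathlib.Analysis.InnerProductSpace.JointEigenspace
import Mathlib.Analysis.InnerProductSpace.LaxMilgram
import Mathlib.Analysis.InnerProductSpace.LinearPMap
import Mathlib.Analysis.InnerProductSpace.MeanErgodic
import Mathlib.Analysis.InnerProductSpace.MulOpposite
import Mathlib.Analysis.InnerProductSpace.NormDet
import Mathlib.Analysis.InnerProductSpace.NormPow
import Mathlib.Analysis.InnerProductSpace.OfNorm
import Mathlib.Analysis.InnerProductSpace.Reproducing
import Mathlib.Analysis.InnerProductSpace.StandardSubspace
import Mathlib.Analysis.InnerProductSpace.StarOrder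
import Mathlib.Analysis.InnerProductSpace.Trace
import Mathlib.Analysis.InnerProductSpace.TwoDim
import Mathlib.Analysis.InnerProductSpace.WeakOperatorTopology
import Mathlib.Analysis.MellinInversion
import Mathlib.Analysis.Normed.Field.Dense
import Mathlib.Analysis.Normed.Field.Instances
import Mathlib.Analysis.Normed.Field.ProperSpace
import Mathlib.Analysis.Normed.Field.WithAbs
import Mathlib.Analysis.Normed.Group.CocompactMap
import Mathlib.Analysis.Normed.Group.Completeness
import Mathlib.Analysis.Normed.Group.ControlledClosure
import Mathlib.Analysis.Normed.Group.HomCompletion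
import Mathlib.Analysis.Normed.Group.SemiNormedGrp
import Mathlib.Analysis.Normed.Group.SeparationQuotient
import Mathlib.Analysis.Normed.Lp.Finsupp
import Mathlib.Analysis.Normed.Lp.LpEquiv
import Mathlib.Analysis.Normed.Lp.lpHolder
import Mathlib.Analysis.Normed.Module.ContinuousInverse
import Mathlib.Analysis.Normed.Module.DoubleDual
import Mathlib.Analysis.Normed.Module.MStructure
import Mathlib.Analysis.Normed.Module.MultipliableUniformlyOn
import Mathlib.Analysis.Normed.Module.Normalize
import Mathlib.Analysis.Normed.Operator.Compact
import Mathlib.Analysis.Normed.Operator.ContinuousAlgEquiv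
import Mathlib.Analysis.Normed.Operator.FredholmAlternative
import Mathlib.Analysis.Normed.Order.Basic
import Mathlib.Analysis.Normed.Order.UpperLower
import Mathlib.Analysis.Normed.Ring.InfiniteProd
import Mathlib.Analysis.Normed.Ring.Int
import Mathlib.Analysis.PSeriesComplex
import Mathlib.Analysis.Quaternion
import Mathlib.Analysis.RCLike.ContinuousMap
import Mathlib.Analysis.Real.Hyperreal
import Mathlib.Analysis.SpecialFunctions.Arcosh
import Mathlib.Analysis.SpecialFunctions.ArithmeticGeometricMean
import Mathlib.Analysis.SpecialFunctions.Arsinh
import Mathlib.Analysis.SpecialFunctions.Artanh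
import Mathlib.Analysis.SpecialFunctions.BinaryEntropy
import Mathlib.Analysis.SpecialFunctions.Choose
import Mathlib.Analysis.SpecialFunctions.CompareExp
import Mathlib.Analysis.SpecialFunctions.FrullaniIntegral
import Mathlib.Analysis.SpecialFunctions.Integrability.LogMeromorphic
import Mathlib.Analysis.SpecialFunctions.Log.Base
import Mathlib.Analysis.SpecialFunctions.Log.Monotone
import Mathlib.Analysis.SpecialFunctions.Log.RpowTendsto
import Mathlib.Analysis.SpecialFunctions.Pochhammer
import Mathlib.Analysis.SpecialFunctions.Pow.Integral
import Mathlib.Analysis.SpecialFunctions.Pow.NthRootLemmas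
import Mathlib.Analysis.SpecialFunctions.RegularizedHypergeometric
import Mathlib.Analysis.SpecialFunctions.Sigmoid
import Mathlib.Analysis.SpecialFunctions.Stirling
import Mathlib.Analysis.SpecificLimits.ArithmeticGeometric
import Mathlib.Analysis.SpecificLimits.Fibonacci
import Mathlib.Analysis.SpecificLimits.FloorPow
import Mathlib.Analysis.Subadditive
import Mathlib.Analysis.SumIntegralExpDecay
import Mathlib.Combinatorics.Additive.ApproximateSubgroup
import Mathlib.Combinatorics.Additive.CauchyDavenport
import Mathlib.Combinatorics.Additive.DoublingConst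
import Mathlib.Combinatorics.Additive.Energy
import Mathlib.Combinatorics.Additive.ErdosGinzburgZiv
import Mathlib.Combinatorics.Additive.FreimanHom
import Mathlib.Combinatorics.Additive.Randomisation
import Mathlib.Combinatorics.Additive.SubsetSum
import Mathlib.Combinatorics.Additive.VerySmallDoubling
import Mathlib.Data.Char
import Mathlib.Data.ENat.BigOperators
import Mathlib.Data.Erased
import Mathlib.Data.Fin.Init
import Mathlib.Data.Fin.Pigeonhole
import Mathlib.Data.Fin.SuccPredOrder
import Mathlib.Data.Fin.Tuple.BubbleSortInduction
import Mathlib.Data.Fin.Tuple.Curry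
import Mathlib.Data.Fin.Tuple.Finset
import Mathlib.Data.Fin.Tuple.Take
import Mathlib.Data.FinEnum
import Mathlib.Data.Finmap
import Mathlib.Data.Finset.CastCard
import Mathlib.Data.Finset.DenselyOrdered
import Mathlib.Data.Finset.Finsupp
import Mathlib.Data.Finset.Functor
import Mathlib.Data.Finset.Interval
import Mathlib.Data.Finset.Lattice.Pi
import Mathlib.Data.Finset.NatDivisors
import Mathlib.Data.Finset.PImage
import Mathlib.Data.Finset.PiInduction
import Mathlib.Data.Finset.Sups
import Mathlib.Data.Fintype.Shrink
import Mathlib.Data.Fintype.Units
import Mathlib.Data.FunLike.Fintype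
import Mathlib.Data.FunLike.Graded
import Mathlib.Data.Holor
import Mathlib.Data.Int.CardIntervalMod
import Mathlib.Data.Int.Lemmas
import Mathlib.Data.Int.NatPrime
import Mathlib.Data.Int.Star
import Mathlib.Data.Matrix.Action
import Mathlib.Data.Matrix.Auto
import Mathlib.Data.Matrix.Bilinear
import Mathlib.Data.Matrix.Cartan
import Mathlib.Data.Matrix.DMatrix
import Mathlib.Data.Matrix.DualNumber
import Mathlib.Data.Matrix.Invertible
import Mathlib.Data.NNRat.BigOperators
import Mathlib.Data.NNRat.Encodable
import Mathlib.Data.NNRat.Floor
import Mathlib.Data.NNRat.Lemmas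
import Mathlib.Data.NNRat.Order
import Mathlib.Data.Nat.BitIndices
import Mathlib.Data.Nat.Cast.SetInterval
import Mathlib.Data.Nat.Cast.Synonym
import Mathlib.Data.Nat.ChineseRemainder
import Mathlib.Data.Nat.Dist
import Mathlib.Data.Nat.EvenOddRec
import Mathlib.Data.Nat.Hyperoperation
import Mathlib.Data.Nat.Lattice
import Mathlib.Data.Nat.Nth
import Mathlib.Data.Nat.PSub
import Mathlib.Data.Nat.Upto
import Mathlib.Data.Rat.Cardinal
import Mathlib.Data.Rat.Denumerable
import Mathlib.Data.Rat.Star
import Mathlib.Data.Real.Archimedean
import Mathlib.Data.Real.CompleteField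
import Mathlib.Data.Real.Embedding
import Mathlib.Data.Real.Hom
import Mathlib.Data.Real.Sign
import Mathlib.Data.Real.Sqrt
import Mathlib.Data.Real.StarOrdered
import Mathlib.Data.Semiquot
import Mathlib.Data.Set.Accumulate
import Mathlib.Data.Set.Dissipate
import Mathlib.Data.Set.Enumerate
import Mathlib.Data.Set.Equitable
import Mathlib.Data.Set.Finite.List
import Mathlib.Data.Set.Finite.Monad
import Mathlib.Data.Set.FiniteExhaustion
import Mathlib.Data.Set.Opposite
import Mathlib.Data.SubtypeNeLift
import Mathlib.Data.TwoPointing
import Mathlib.Data.TypeVec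
import Mathlib.Data.UInt
import Mathlib.Data.Vector3
import Mathlib.Data.ZMod.Coprime
import Mathlib.Data.ZMod.Factorial
import Mathlib.Geometry.Convex.Cone.DualFinite
import Mathlib.Geometry.Manifold.Bordism
import Mathlib.Geometry.Manifold.Complex
import Mathlib.Geometry.Manifold.ConformalGroupoid
import Mathlib.Geometry.Manifold.DerivationBundle
import Mathlib.Geometry.Manifold.GroupLieAlgebra
import Mathlib.Geometry.Manifold.Metrizable
import Mathlib.Geometry.Manifold.PoincareConjecture
import Mathlib.Geometry.Manifold.Sheaf.LocallyRingedSpace
import Mathlib.Geometry.Manifold.SmoothEmbedding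
import Mathlib.Geometry.Manifold.Submersion
import Mathlib.Geometry.Manifold.WhitneyEmbedding
import Mathlib.GroupTheory.GroupAction.CardCommute
import Mathlib.GroupTheory.GroupAction.Iwasawa
import Mathlib.GroupTheory.GroupAction.Jordan
import Mathlib.GroupTheory.GroupAction.OfQuotient
import Mathlib.GroupTheory.GroupAction.Period
import Mathlib.GroupTheory.GroupAction.Support
import Mathlib.LinearAlgebra.Alternating.DomCoprod
import Mathlib.LinearAlgebra.Basis.Flag
import Mathlib.LinearAlgebra.Center
import Mathlib.LinearAlgebra.Coevaluation
import Mathlib.LinearAlgebra.ConvexSpace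
import Mathlib.LinearAlgebra.Countable
import Mathlib.LinearAlgebra.CrossProduct
import Mathlib.LinearAlgebra.FreeAlgebra
import Mathlib.LinearAlgebra.FreeModule.Int
import Mathlib.LinearAlgebra.FreeModule.ModN
import Mathlib.LinearAlgebra.FreeModule.Norm
import Mathlib.LinearAlgebra.Goursat
import Mathlib.LinearAlgebra.JordanChevalley
import Mathlib.LinearAlgebra.Lagrange
import Mathlib.LinearAlgebra.Matrix.AbsoluteValue
import Mathlib.LinearAlgebra.Matrix.BaseChange
import Mathlib.LinearAlgebra.Matrix.CharP
import Mathlib.LinearAlgebra.Matrix.Circulant
import Mathlib.LinearAlgebra.Matrix.Determinant.Misc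
import Mathlib.LinearAlgebra.Matrix.Determinant.TotallyUnimodular
import Mathlib.LinearAlgebra.Matrix.FixedDetMatrices
import Mathlib.LinearAlgebra.Matrix.Gershgorin
import Mathlib.LinearAlgebra.Matrix.HadamardMatrix
import Mathlib.LinearAlgebra.Matrix.Integer
import Mathlib.LinearAlgebra.Matrix.IsDiag
import Mathlib.LinearAlgebra.Matrix.Module
import Mathlib.LinearAlgebra.Matrix.Nonsingular
import Mathlib.LinearAlgebra.Matrix.Permanent
import Mathlib.LinearAlgebra.Matrix.ProjectiveSpecialLinearGroup
import Mathlib.LinearAlgebra.Matrix.Swap
import Mathlib.LinearAlgebra.Matrix.Unique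
import Mathlib.LinearAlgebra.Matrix.WithConv
import Mathlib.LinearAlgebra.Matrix.ZMatrix
import Mathlib.LinearAlgebra.Multilinear.DirectSum
import Mathlib.LinearAlgebra.Multilinear.FiniteDimensional
import Mathlib.LinearAlgebra.Multilinear.Pi
import Mathlib.LinearAlgebra.PID
import Mathlib.LinearAlgebra.PiTensorProduct
import Mathlib.LinearAlgebra.Reflection
import Mathlib.LinearAlgebra.Span.TensorProduct
import Mathlib.LinearAlgebra.SpecialLinearGroup
import Mathlib.LinearAlgebra.SymplecticGroup
import Mathlib.LinearAlgebra.Transvection
import Mathlib.Logic.Equiv.Array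
import Mathlib.Logic.Equiv.Bool
import Mathlib.Logic.Equiv.Pairwise
import Mathlib.Logic.Hydra
import Mathlib.Logic.IsEmpty
import Mathlib.MeasureTheory.Constructions.AddChar
import Mathlib.MeasureTheory.Constructions.BorelSpace.WithTop
import Mathlib.MeasureTheory.Constructions.ClosedCompactCylinders
import Mathlib.MeasureTheory.Constructions.ProjectiveFamilyContent
import Mathlib.MeasureTheory.Constructions.SimpleGraph
import Mathlib.MeasureTheory.Constructions.SubmoduleQuotient
import Mathlib.MeasureTheory.Constructions.UnitInterval
import Mathlib.MeasureTheory.Function.AEEqFun.DomAct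
import Mathlib.MeasureTheory.Function.ConditionalLExpectation
import Mathlib.MeasureTheory.Function.ConvergenceInDistribution
import Mathlib.MeasureTheory.Function.FactorsThrough
import Mathlib.MeasureTheory.Function.Floor
import Mathlib.MeasureTheory.Function.Intersectivity
import Mathlib.MeasureTheory.Function.LpSeminorm.Count
import Mathlib.MeasureTheory.Function.LpSpace.ContinuousCompMeasurePreserving
import Mathlib.MeasureTheory.Function.Piecewise
import Mathlib.MeasureTheory.Function.SpecialFunctions.Arctan
import Mathlib.MeasureTheory.Function.SpecialFunctions.Inner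
import Mathlib.MeasureTheory.Function.SpecialFunctions.RCLike
import Mathlib.MeasureTheory.Function.UnifTight
import Mathlib.MeasureTheory.Group.AddCircle
import Mathlib.MeasureTheory.Group.FoelnerFilter
import Mathlib.MeasureTheory.Group.GeometryOfNumbers
import Mathlib.MeasureTheory.Group.ModularCharacter
import Mathlib.MeasureTheory.Integral.CircleAverage
import Mathlib.MeasureTheory.Integral.CircleTransform
import Mathlib.MeasureTheory.Integral.Indicator
import Mathlib.MeasureTheory.Integral.IntervalIntegral.ContDiff
import Mathlib.MeasureTheory.Integral.IntervalIntegral.DistLEIntegral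
import Mathlib.MeasureTheory.Integral.IntervalIntegral.MeanValue
import Mathlib.MeasureTheory.Integral.IntervalIntegral.TrapezoidalRule
import Mathlib.MeasureTheory.Integral.LebesgueNormedSpace
import Mathlib.MeasureTheory.Integral.RieszMarkovKakutani.NNReal
import Mathlib.MeasureTheory.Integral.TorusIntegral
import Mathlib.MeasureTheory.MeasurableSpace.Card
import Mathlib.MeasureTheory.MeasurableSpace.Invariants
import Mathlib.MeasureTheory.MeasurableSpace.NCard
import Mathlib.MeasureTheory.Measure.CharacteristicFunction
import Mathlib.MeasureTheory.Measure.Decomposition.IntegralRNDeriv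
import Mathlib.MeasureTheory.Measure.DiracProba
import Mathlib.MeasureTheory.Measure.FiniteMeasurePi
import Mathlib.MeasureTheory.Measure.FiniteMeasureProd
import Mathlib.MeasureTheory.Measure.Haar.DistribChar
import Mathlib.MeasureTheory.Measure.Haar.Extension
import Mathlib.MeasureTheory.Measure.Haar.MulEquivHaarChar
import Mathlib.MeasureTheory.Measure.HasOuterApproxClosedProd
import Mathlib.MeasureTheory.Measure.Lebesgue.VolumeOfBalls
import Mathlib.MeasureTheory.Measure.LevyConvergence
import Mathlib.MeasureTheory.Measure.LogLikelihoodRatio
import Mathlib.MeasureTheory.Measure.MeasuredSets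
import Mathlib.MeasureTheory.Measure.PreVariation
import Mathlib.MeasureTheory.Measure.ResolventTransform
import Mathlib.MeasureTheory.Measure.SeparableMeasure
import Mathlib.MeasureTheory.Measure.SubFinite
import Mathlib.MeasureTheory.Measure.Typeclasses.NoAtoms
import Mathlib.MeasureTheory.Measure.Typeclasses.ZeroOne
import Mathlib.MeasureTheory.Measure.WithDensityFinite
import Mathlib.MeasureTheory.OuterMeasure.OfAddContent
import Mathlib.Order.Birkhoff
import Mathlib.Order.BooleanGenerators
import Mathlib.Order.Booleanisation
import Mathlib.Order.Bounded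
import Mathlib.Order.Comparable
import Mathlib.Order.CompleteLattice.MulticoequalizerDiagram
import Mathlib.Order.CompleteLattice.PiLex
import Mathlib.Order.CompleteLattice.SetLike
import Mathlib.Order.CountableDenseLinearOrder
import Mathlib.Order.CountableSupClosed
import Mathlib.Order.Filter.Cocardinal
import Mathlib.Order.Filter.ZeroAndBoundedAtFilter
import Mathlib.Order.Fin.Clamp
import Mathlib.Order.Fin.Finset
import Mathlib.Order.Fin.InsertNth
import Mathlib.Order.Fin.SuccAboveOrderIso
import Mathlib.Order.Height
import Mathlib.Order.Interval.Finset.Box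
import Mathlib.Order.Interval.Finset.Floor
import Mathlib.Order.Interval.Set.Final
import Mathlib.Order.Interval.Set.InitialSeg
import Mathlib.Order.Interval.Set.Limit
import Mathlib.Order.Interval.Set.Nat
import Mathlib.Order.Interval.Set.OrdConnectedLinear
import Mathlib.Order.Interval.Set.SuccOrder
import Mathlib.Order.Interval.Set.SurjOn
import Mathlib.Order.KonigLemma
import Mathlib.Order.Lattice.Congruence
import Mathlib.Order.Monotone.MonovaryOrder
import Mathlib.Order.NonemptyFiniteChains
import Mathlib.Order.PrimeSeparator
import Mathlib.Order.Radical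
import Mathlib.Order.SemiconjSup
import Mathlib.Order.Set
import Mathlib.Order.Shrink
import Mathlib.Order.Std
import Mathlib.Order.Sublocale
import Mathlib.Order.Synonym
import Mathlib.Order.TeichmullerTukey
import Mathlib.Order.TransfiniteIteration
import Mathlib.Order.WithBotTop
import Mathlib.RingTheory.ClassGroup
import Mathlib.RingTheory.Complex
import Mathlib.RingTheory.DedekindDomain.FiniteAdeleRing
import Mathlib.RingTheory.DedekindDomain.GaussLemma
import Mathlib.RingTheory.DedekindDomain.Instances
import Mathlib.RingTheory.DedekindDomain.LinearDisjoint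
import Mathlib.RingTheory.DedekindDomain.SInteger
import Mathlib.RingTheory.DedekindDomain.SelmerGroup
import Mathlib.RingTheory.DualNumber
import Mathlib.RingTheory.Etale.Descent
import Mathlib.RingTheory.Etale.Finite
import Mathlib.RingTheory.Etale.QuasiFinite
import Mathlib.RingTheory.Etale.StandardEtale
import Mathlib.RingTheory.Etale.Weakly
import Mathlib.RingTheory.Finiteness.ModuleFinitePresentation
import Mathlib.RingTheory.Finiteness.Nilpotent
import Mathlib.RingTheory.Fintype
import Mathlib.RingTheory.Flat.CategoryTheory
import Mathlib.RingTheory.Flat.Domain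
import Mathlib.RingTheory.Flat.LocallyFree
import Mathlib.RingTheory.Frobenius
import Mathlib.RingTheory.Grassmannian
import Mathlib.RingTheory.Henselian
import Mathlib.RingTheory.IsAdjoinRoot
import Mathlib.RingTheory.Lasker
import Mathlib.RingTheory.LaurentSeries
import Mathlib.RingTheory.LittleWedderburn
import Mathlib.RingTheory.LocalIso
import Mathlib.RingTheory.NoetherNormalization
import Mathlib.RingTheory.NormTrace
import Mathlib.RingTheory.NormalClosure
import Mathlib.RingTheory.Nullstellensatz
import Mathlib.RingTheory.PiTensorProduct
import Mathlib.RingTheory.PicardGroup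
import Mathlib.RingTheory.Prime
import Mathlib.RingTheory.Radical
import Mathlib.RingTheory.RingInvo
import Mathlib.RingTheory.Teichmuller
import Mathlib.Tactic
import Mathlib.Topology.Algebra.AsymptoticCone
import Mathlib.Topology.Algebra.ClopenNhdofOne
import Mathlib.Topology.Algebra.Group.AddTorsor
import Mathlib.Topology.Algebra.Group.DiscontinuousSubgroup
import Mathlib.Topology.Algebra.Group.Matrix
import Mathlib.Topology.Algebra.Group.OpenMapping
import Mathlib.Topology.Algebra.Group.SubmonoidClosure
import Mathlib.Topology.Algebra.Group.TopologicalAbelianization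
import Mathlib.Topology.Algebra.Group.Units
import Mathlib.Topology.Algebra.InfiniteSum.ConditionalInt
import Mathlib.Topology.Algebra.InfiniteSum.DiscreteConvolution
import Mathlib.Topology.Algebra.InfiniteSum.Nonarchimedean
import Mathlib.Topology.Algebra.InfiniteSum.TsumUniformlyOn
import Mathlib.Topology.Algebra.IntermediateField
import Mathlib.Topology.Algebra.IsOpenUnits
import Mathlib.Topology.Algebra.LinearMapCompletion
import Mathlib.Topology.Algebra.Localization
import Mathlib.Topology.Algebra.Module.EmbeddingOfLocal
import Mathlib.Topology.Algebra.Module.FiniteDimensionBilinear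
import Mathlib.Topology.Algebra.Module.IsWeak
import Mathlib.Topology.Algebra.Module.LinearMap
import Mathlib.Topology.Algebra.Module.LinearMapPiProd
import Mathlib.Topology.Algebra.Module.StrongTopology
import Mathlib.Topology.Algebra.Module.WeakDual
import Mathlib.Topology.Algebra.Monoid.AddChar
import Mathlib.Topology.Algebra.MvPolynomial
import Mathlib.Topology.Algebra.Order.ArchimedeanDiscrete
import Mathlib.Topology.Algebra.PontryaginDual
import Mathlib.Topology.Algebra.ProperAction.AddTorsor
import Mathlib.Topology.Algebra.ProperAction.ProperlyDiscontinuous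
import Mathlib.Topology.Algebra.ProperConstSMul
import Mathlib.Topology.Algebra.Ring.Compact
import Mathlib.Topology.Algebra.Semigroup
import Mathlib.Topology.ApproximateUnit
import Mathlib.Topology.CantorBendixson
import Mathlib.Topology.ClopenBox
import Mathlib.Topology.Compactness.CompactSystem
import Mathlib.Topology.Compactness.CountablyCompact
import Mathlib.Topology.Compactness.DeltaGeneratedSpace
import Mathlib.Topology.Connected.CardComponents
import Mathlib.Topology.Connected.LocPathConnected
import Mathlib.Topology.Connected.PathComponentOne
import Mathlib.Topology.Connected.Separation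
import Mathlib.Topology.ContinuousMap.BoundedCompactlySupported
import Mathlib.Topology.ContinuousMap.LocallyConstant
import Mathlib.Topology.ContinuousMap.LocallyConvex
import Mathlib.Topology.ContinuousMap.Periodic
import Mathlib.Topology.ContinuousMap.SecondCountableSpace
import Mathlib.Topology.ContinuousMap.Sigma
import Mathlib.Topology.ContinuousMap.T0Sierpinski
import Mathlib.Topology.Convenient.HomSpace
import Mathlib.Topology.Convenient.Localization
import Mathlib.Topology.Convenient.OpenClosed
import Mathlib.Topology.DiscreteQuotient
import Mathlib.Topology.EMetricSpace.PairReduction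
import Mathlib.Topology.EMetricSpace.Weak
import Mathlib.Topology.ExtremallyDisconnected
import Mathlib.Topology.FiberPartition
import Mathlib.Topology.Germ
import Mathlib.Topology.Gluing
import Mathlib.Topology.Instances.Complex
import Mathlib.Topology.Instances.ENNReal.ENatENNReal
import Mathlib.Topology.Instances.PNat
import Mathlib.Topology.Instances.RatLemmas
import Mathlib.Topology.Instances.TrivSqZeroExt
import Mathlib.Topology.Instances.ZMod
import Mathlib.Topology.IsClosedRestrict
import Mathlib.Topology.List
import Mathlib.Topology.MetricSpace.BundledFun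
import Mathlib.Topology.MetricSpace.CoveringNumbers
import Mathlib.Topology.MetricSpace.GromovHausdorff
import Mathlib.Topology.MetricSpace.HausdorffAlexandroff
import Mathlib.Topology.MetricSpace.HolderNorm
import Mathlib.Topology.MetricSpace.Infsep
import Mathlib.Topology.MetricSpace.ShrinkingLemma
import Mathlib.Topology.MetricSpace.Similarity
import Mathlib.Topology.MetricSpace.Snowflaking
import Mathlib.Topology.Metrizable.ContinuousMap
import Mathlib.Topology.NatEmbedding
import Mathlib.Topology.OmegaCompletePartialOrder
import Mathlib.Topology.Order.Completion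
import Mathlib.Topology.Order.CountableSeparating
import Mathlib.Topology.Order.Filter
import Mathlib.Topology.Order.HullKernel
import Mathlib.Topology.Order.IsLocallyClosed
import Mathlib.Topology.Order.IsNormal
import Mathlib.Topology.Order.LawsonTopology
import Mathlib.Topology.Order.NhdsSet
import Mathlib.Topology.Order.PartialSups
import Mathlib.Topology.Order.Priestley
import Mathlib.Topology.Order.SuccPred
import Mathlib.Topology.Partial
import Mathlib.Topology.PreorderRestrict
import Mathlib.Topology.Separation.AlexandrovDiscrete
import Mathlib.Topology.Separation.Lemmas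
import Mathlib.Topology.Separation.LinearUpperLowerSetTopology
import Mathlib.Topology.Separation.NotNormal
import Mathlib.Topology.Separation.PerfectlyNormal
import Mathlib.Topology.Sion
import Mathlib.Topology.SmallInductiveDimension
import Mathlib.Topology.Specialization
import Mathlib.Topology.Subpath
import Mathlib.Topology.UniformSpace.CompareReals
import Mathlib.Topology.UniformSpace.Dini
import Mathlib.Topology.UniformSpace.Path
import Mathlib.Topology.UniformSpace.ProdApproximation
import Mathlib.Topology.UniformSpace.Uniformizable

/-! A larger part of Mathlib, for files that need more than MathlibUsed. -/
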